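import Vale.Agent.P073.RED.Spec
import Vale.Agent.P073.PK.Sob560a

/-!
# P073, RED-A2: the glued map is a Sobolev map
-/

namespace Vale.Agent.P073.RED

open MeasureTheory Set Filter Topology Vale.Agent.P073.St
open Vale.Agent.P073.PK (pd_eq_fderiv cl_apply InLp.integrableOn volume_ne_top_of_domain)
open Vale.Agent.P073.SQ (ev)
open Vale.Agent.P073.AB (cl)
open scoped ENNReal ContDiff

theorem glue_of_mem {ι E : Type} [Zero E] {K : ι → Set V} (u : ι → V → E)
    (hK : ∀ i j, i ≠ j → Disjoint (K i) (K j)) {i : ι} {x : V} (hx : x ∈ interior (K i)) :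
    glue K u x = u i x := by
  have h : ∃ i, x ∈ interior (K i) := ⟨i, hx⟩
  unfold glue
  rw [dif_pos h]
  have : h.choose = i := by
    by_contra hne
    exact (hK _ _ hne).ne_of_mem (interior_subset h.choose_spec) (interior_subset hx) rfl
  rw [this]

theorem glue_of_notMem {ι E : Type} [Zero E] {K : ι → Set V} (u : ι → V → E) {x : V}
    (hx : ∀ i, x ∉ interior (K i)) : glue K u x = 0 := by
  unfold glue
  rw [dif_neg (fun ⟨i, hi⟩ => hx i hi)]

theorem integrable_test_mul' {u φ : V → ℝ} {S : Set V} (hu : IntegrableOn u S) (hφ : Continuous φ)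
    (hc : HasCompactSupport φ) : IntegrableOn (fun x => φ x * u x) S := by
  obtain ⟨C, hC⟩ := hc.exists_bound_of_continuous hφ
  exact hu.bdd_mul hφ.aestronglyMeasurable (ae_of_all _ hC)

section

variable {p : ℝ} {Ω : Set V} {f : V → V} {F : V → Mat} {ε : ℝ} {ι : Type} [Countable ι]
  {K : ι → Set V} {u : ι → V → V} {U : ι → V → Mat}

theorem glue_sm {E : Type} [NormedAddCommGroup E] {w : ι → V → E}
    (hd : ∀ i j, i ≠ j → Disjoint (K i) (K j))
    (hw : ∀ i, AEStronglyMeasurable (w i) volume) :
    AEStronglyMeasurable (glue K w) volume := by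
  have h1 : AEStronglyMeasurable (glue K w) (volume.restrict (⋃ i, interior (K i))) := by
    refine AEStronglyMeasurable.iUnion (fun i => ?_)
    refine ((hw i).mono_measure Measure.restrict_le_self).congr ?_
    filter_upwards [ae_restrict_mem isOpen_interior.measurableSet] with x hx
    exact (glue_of_mem w hd hx).symm
  have hm : MeasurableSet (⋃ i, interior (K i)) :=
    MeasurableSet.iUnion fun i => isOpen_interior.measurableSet
  have h2 : AEStronglyMeasurable (glue K w) (volume.restrict (⋃ i, interior (K i))ᶜ) := by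
    refine (aestronglyMeasurable_const (b := (0:E))).congr ?_
    filter_upwards [ae_restrict_mem hm.compl] with x hx
    exact (glue_of_notMem w (fun i hi => hx (mem_iUnion_of_mem i hi))).symm
  have h3 := aestronglyMeasurable_union_iff.mpr ⟨h1, h2⟩
  rwa [union_compl_self, Measure.restrict_univ] at h3

end

/-- **(RED-A2)** -/
theorem specGlueS : SpecGlueS := by
  intro p Ω Λ f F hp hΩ hΛ hfh hf ι _ ε K u U hC hd
  have hΩo := hΩ.1
  have hΩm := hΩo.measurableSet
  have hv := volume_ne_top_of_domain hΩ
  have hfin : IsFiniteMeasure (volume.restrict Ω) := ⟨by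
    rw [Measure.restrict_apply_univ]; exact hv.lt_top⟩
  set D : Set V := ⋃ i, interior (K i) with hD
  have hDΩ : D ⊆ Ω := iUnion_subset fun i => interior_subset.trans (hC i).sub
  have hDm : MeasurableSet D := MeasurableSet.iUnion fun i => isOpen_interior.measurableSet
  have hdisj : Pairwise (Function.onFun Disjoint fun i => interior (K i)) := fun i j hij =>
    (hd i j hij).mono interior_subset interior_subset
  -- the components
  have hgu : ∀ a, InLp p Ω (fun x => glue K u x a) := by
    intro a
    refine MemLp.of_bound ?_ (max ε 0) ?_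
    · have h1 := glue_sm (K := K) (w := u) hd (fun i => (hC i).cont.aestronglyMeasurable)
      exact ((continuous_apply a).comp_aestronglyMeasurable h1).mono_measure
        Measure.restrict_le_self
    · refine ae_of_all _ (fun x => ?_)
      by_cases hx : ∃ i, x ∈ interior (K i)
      · obtain ⟨i, hi⟩ := hx
        rw [glue_of_mem u hd hi]
        exact ((norm_le_pi_norm _ a).trans ((hC i).near x)).trans (le_max_left _ _)
      · rw [glue_of_notMem u (fun i hi => hx ⟨i, hi⟩)]
        simp
  have hUsm : ∀ a b, AEStronglyMeasurable (fun x => glue K U x a b) volume := by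
    intro a b
    have e : (fun x => glue K U x a b) = glue K (fun i x => U i x a b) := by
      ext x
      by_cases hx : ∃ i, x ∈ interior (K i)
      · obtain ⟨i, hi⟩ := hx
        rw [glue_of_mem U hd hi, glue_of_mem _ hd hi]
      · rw [glue_of_notMem U (fun i hi => hx ⟨i, hi⟩), glue_of_notMem _ (fun i hi => hx ⟨i, hi⟩)]
        rfl
    rw [e]
    refine glue_sm hd (fun i => ?_)
    have h1 := ((hC i).sob.2.1 a b).aestronglyMeasurable
    rwa [Measure.restrict_univ] at h1
  have hgU : ∀ a b, InLp p Ω (fun x => glue K U x a b) := by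
    intro a b
    refine ⟨(hUsm a b).mono_measure Measure.restrict_le_self, ?_⟩
    have hp0 : 0 < p := by linarith
    have hp1 : ENNReal.ofReal p ≠ 0 := by simpa using hp0
    rw [eLpNorm_lt_top_iff_lintegral_rpow_enorm_lt_top hp1 ENNReal.ofReal_ne_top,
      ENNReal.toReal_ofReal hp0.le]
    have e1 : ∫⁻ x in Ω, ‖glue K U x a b‖ₑ ^ p = ∫⁻ x in D, ‖glue K U x a b‖ₑ ^ p := by
      rw [← lintegral_indicator hΩm, ← lintegral_indicator hDm]
      refine lintegral_congr (fun x => ?_)
      by_cases hx : x ∈ D
      · rw [indicator_of_mem (hDΩ hx), indicator_of_mem hx]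
      · rw [indicator_of_notMem hx]
        by_cases hx' : x ∈ Ω
        · rw [indicator_of_mem hx', glue_of_notMem U (fun i hi => hx (mem_iUnion_of_mem i hi))]
          simp [hp0]
        · rw [indicator_of_notMem hx']
    rw [e1, hD, lintegral_iUnion (fun i => isOpen_interior.measurableSet) hdisj]
    have e2 : ∀ i, ∫⁻ x in interior (K i), ‖glue K U x a b‖ₑ ^ p ≤
        ENNReal.ofReal ε * volume (K i) := by
      intro i
      refine le_trans ?_ (hC i).small
      refine le_trans ?_ (Finset.single_le_sum (f := fun j => ∫⁻ x in K i,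
        ENNReal.ofReal (‖cl (U i x) (ev j)‖ ^ p)) (fun j _ => zero_le) (Finset.mem_univ b))
      refine (setLIntegral_mono' isOpen_interior.measurableSet (fun x hx => ?_)).trans
        (lintegral_mono_set interior_subset)
      rw [glue_of_mem U hd hx, ← ofReal_norm,
        ENNReal.ofReal_rpow_of_nonneg (norm_nonneg _) hp0.le]
      refine ENNReal.ofReal_le_ofReal (Real.rpow_le_rpow (norm_nonneg _) ?_ hp0.le)
      refine le_trans (le_of_eq ?_) (norm_le_pi_norm (cl (U i x) (ev b)) a)
      congr 1
      rw [cl_apply]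
      simp [SQ.ev, Pi.single_apply]
    refine (ENNReal.tsum_le_tsum e2).trans_lt ?_
    rw [ENNReal.tsum_mul_left]
    refine ENNReal.mul_lt_top ENNReal.ofReal_lt_top ?_
    have hKm : ∀ i, MeasurableSet (K i) := fun i => (hC i).comp.measurableSet
    rw [← measure_iUnion (fun i j hij => hd i j hij) hKm]
    exact (measure_mono (iUnion_subset fun i => (hC i).sub)).trans_lt hv.lt_top
  have i1 : ∀ a, IntegrableOn (fun x => glue K u x a) Ω := fun a => InLp.integrableOn hp hv (hgu a)
  have i2 : ∀ a, IntegrableOn (fun x => f x a) Ω := fun a => InLp.integrableOn hp hv (hf.1 a)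
  have i3 : ∀ a b, IntegrableOn (fun x => glue K U x a b) Ω := fun a b =>
    InLp.integrableOn hp hv (hgU a b)
  have i4 : ∀ a b, IntegrableOn (fun x => F x a b) Ω := fun a b =>
    InLp.integrableOn hp hv (hf.2.1 a b)
  refine ⟨fun a => (hf.1 a).add (hgu a), fun a b => (hf.2.1 a b).add (hgU a b),
    fun φ hφ a b => ?_⟩
  have hφs : ContDiff ℝ ∞ φ := contDiffOn_univ.mp hφ.1
  have hφc := hφ.2.1
  have hdc : Continuous fun x => pd φ x b := by
    simp only [pd_eq_fderiv hφs]
    exact (hφs.continuous_fderiv (by simp)).clm_apply continuous_const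
  have hds : HasCompactSupport fun x => pd φ x b := by
    simp only [pd_eq_fderiv hφs]
    exact (hφc.fderiv (𝕜 := ℝ)).comp_left (g := fun L : V →L[ℝ] ℝ => L (Pi.single b 1)) rfl
  have key : ∫ x in Ω, φ x * glue K U x a b = - ∫ x in Ω, pd φ x b * glue K u x a := by
    have j1 : IntegrableOn (fun x => φ x * glue K U x a b) Ω :=
      integrable_test_mul' (i3 a b) hφs.continuous hφc
    have j2 : IntegrableOn (fun x => pd φ x b * glue K u x a) Ω :=
      integrable_test_mul' (i1 a) hdc hds
    have e1 : ∫ x in Ω, φ x * glue K U x a b = ∫ x in D, φ x * glue K U x a b := by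
      refine setIntegral_eq_of_subset_of_forall_sdiff_eq_zero hΩm hDΩ (fun x hx => ?_)
      rw [glue_of_notMem U (fun i hi => hx.2 (mem_iUnion_of_mem i hi))]
      simp
    have e2 : ∫ x in Ω, pd φ x b * glue K u x a = ∫ x in D, pd φ x b * glue K u x a := by
      refine setIntegral_eq_of_subset_of_forall_sdiff_eq_zero hΩm hDΩ (fun x hx => ?_)
      rw [glue_of_notMem u (fun i hi => hx.2 (mem_iUnion_of_mem i hi))]
      simp
    rw [e1, e2, hD, integral_iUnion (fun i => isOpen_interior.measurableSet) hdisj
      (j1.mono_set hDΩ), integral_iUnion (fun i => isOpen_interior.measurableSet) hdisj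
      (j2.mono_set hDΩ), ← tsum_neg]
    congr 1
    ext i
    have h1 := (hC i).sob.2.2 φ (⟨hφ.1, hφ.2.1, subset_univ _⟩) a b
    unfold St.int at h1
    have e3 : ∫ x in interior (K i), φ x * glue K U x a b = ∫ x in univ, φ x * U i x a b := by
      rw [setIntegral_congr_fun (g := fun x => φ x * U i x a b) isOpen_interior.measurableSet
        (fun x hx => by simp only [glue_of_mem U hd hx])]
      refine (setIntegral_eq_of_subset_of_forall_sdiff_eq_zero MeasurableSet.univ
        (subset_univ _) (fun x hx => ?_)).symm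
      rw [((hC i).off x hx.2).2]
      simp
    have e4 : ∫ x in interior (K i), pd φ x b * glue K u x a = ∫ x in univ, pd φ x b * u i x a := by
      rw [setIntegral_congr_fun (g := fun x => pd φ x b * u i x a) isOpen_interior.measurableSet
        (fun x hx => by simp only [glue_of_mem u hd hx])]
      refine (setIntegral_eq_of_subset_of_forall_sdiff_eq_zero MeasurableSet.univ
        (subset_univ _) (fun x hx => ?_)).symm
      rw [((hC i).off x hx.2).1]
      simp
    rw [e3, e4, h1]
  have h1 := hf.2.2 φ hφ a b
  unfold St.int at h1 ⊢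
  have e3 : ∫ x in Ω, φ x * (F x + glue K U x) a b = (∫ x in Ω, φ x * F x a b) +
      ∫ x in Ω, φ x * glue K U x a b := by
    rw [← integral_add (integrable_test_mul' (i4 a b) hφs.continuous hφc)
      (integrable_test_mul' (i3 a b) hφs.continuous hφc)]
    refine integral_congr_ae (ae_of_all _ fun x => ?_)
    simp only [Pi.add_apply]
    ring
  have e4 : ∫ x in Ω, pd φ x b * (f x + glue K u x) a = (∫ x in Ω, pd φ x b * f x a) +
      ∫ x in Ω, pd φ x b * glue K u x a := by
    rw [← integral_add (integrable_test_mul' (i2 a) hdc hds)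
      (integrable_test_mul' (i1 a) hdc hds)]
    refine integral_congr_ae (ae_of_all _ fun x => ?_)
    simp only [Pi.add_apply]
    ring
  rw [e3, e4, key, h1]
  ring

end Vale.Agent.P073.RED
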