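import Vale.Agent.P073.HB.Acl2

/-!
# P073, RED: extension by zero

A continuous function which vanishes off a bounded open convex set `D` and has an integrable weak
directional derivative in `D` has this derivative on the whole space.
-/

namespace Vale.Agent.P073.HB

open MeasureTheory Set Filter Topology
open scoped ENNReal ContDiff

/-! ## One variable -/

section One

variable {E' : Type*} [NormedAddCommGroup E'] [NormedSpace ℝ E']

theorem exists_Ioo {I : Set ℝ} (hI : IsOpen I) (hc : Convex ℝ I) (hb : Bornology.IsBounded I)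
    (hne : I.Nonempty) : ∃ α β, α < β ∧ I = Ioo α β := by
  have hbb := hb.bddBelow
  have hba := hb.bddAbove
  have key : ∀ x ∈ I, sInf I < x ∧ x < sSup I := by
    intro x hx
    obtain ⟨ε, hε, hball⟩ := Metric.isOpen_iff.mp hI x hx
    have h1 : x - ε / 2 ∈ I := hball (by simp [abs_of_pos hε]; linarith)
    have h2 : x + ε / 2 ∈ I := hball (by simp [abs_of_pos hε]; linarith)
    exact ⟨by linarith [csInf_le hbb h1], by linarith [le_csSup hba h2]⟩
  refine ⟨sInf I, sSup I, ?_, ?_⟩
  · obtain ⟨x, hx⟩ := hne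
    exact (key x hx).1.trans (key x hx).2
  · exact Subset.antisymm key (IsConnected.Ioo_csInf_csSup_subset ⟨hne, hc.isPreconnected⟩ hbb hba)

theorem line_eq {u g : ℝ → E'} {I : Set ℝ} (hu : Continuous u)
    (hg : ∀ a b, IntervalIntegrable g volume a b) (hI : IsOpen I) (hc : Convex ℝ I)
    (hb : Bornology.IsBounded I) (hu0 : ∀ t, t ∉ I → u t = 0) (hg0 : ∀ t, t ∉ I → g t = 0)
    (h : ∀ a b : ℚ, (a : ℝ) < b → Icc (a : ℝ) b ⊆ I → u b - u a = ∫ s in (a : ℝ)..b, g s) (a b : ℝ) :
    u b - u a = ∫ s in a..b, g s := by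
  rcases I.eq_empty_or_nonempty with rfl | hne
  · have e1 : u = 0 := funext fun t => hu0 t (notMem_empty t)
    have e2 : g = 0 := funext fun t => hg0 t (notMem_empty t)
    simp [e1, e2]
  obtain ⟨α, β, hαβ, rfl⟩ := exists_Ioo hI hc hb hne
  -- the function `w` is constant
  set w : ℝ → E' := fun t => u t - ∫ s in (0:ℝ)..t, g s with hw
  have hwc : Continuous w := hu.sub (intervalIntegral.continuous_primitive hg 0)
  have hdiff : ∀ s t, w t - w s = (u t - u s) - ∫ r in s..t, g r := by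
    intro s t
    simp only [hw]
    rw [← intervalIntegral.integral_interval_sub_left (hg 0 t) (hg 0 s)]
    abel
  obtain ⟨q, hq1, hq2⟩ := exists_rat_btwn hαβ
  have hin : ∀ t ∈ Icc α β, w t = w q := by
    have hcl : IsClosed {t | w t = w q} := isClosed_eq hwc continuous_const
    have h1 : Ioo α β ∩ range ((↑) : ℚ → ℝ) ⊆ {t | w t = w q} := by
      rintro _ ⟨ht, ⟨r, rfl⟩⟩
      simp only [mem_ofPred_eq]
      rcases lt_trichotomy (q : ℝ) r with h1 | h1 | h1
      · have h2 := h q r h1 (fun x hx => ⟨hq1.trans_le hx.1, hx.2.trans_lt ht.2⟩)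
        have h3 := hdiff q r
        rw [h2, sub_self] at h3
        exact sub_eq_zero.mp h3
      · rw [h1]
      · have h2 := h r q h1 (fun x hx => ⟨ht.1.trans_le hx.1, hx.2.trans_lt hq2⟩)
        have h3 := hdiff r q
        rw [h2, sub_self] at h3
        exact (sub_eq_zero.mp h3).symm
    have h2 : Ioo α β ⊆ {t | w t = w q} :=
      ((Rat.denseRange_cast (𝕜 := ℝ)).open_subset_closure_inter isOpen_Ioo).trans
        (closure_minimal h1 hcl)
    have h3 : closure (Ioo α β) ⊆ {t | w t = w q} := closure_minimal h2 hcl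
    rw [closure_Ioo hαβ.ne] at h3
    exact fun t ht => h3 ht
  have hle : ∀ s ≤ α, w s = w α := by
    intro s hs
    have h1 := hdiff s α
    rw [hu0 s (fun h => absurd h.1 (not_lt.mpr hs)), hu0 α (fun h => lt_irrefl _ h.1), sub_zero,
      intervalIntegral.integral_zero_ae, sub_zero] at h1
    · exact (sub_eq_zero.mp h1).symm
    · refine ae_of_all _ (fun x hx => hg0 x (fun h => ?_))
      rw [uIoc_of_le hs] at hx
      exact absurd h.1 (not_lt.mpr hx.2)
  have hge : ∀ s, β ≤ s → w s = w β := by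
    intro s hs
    have h1 := hdiff β s
    rw [hu0 s (fun h => absurd h.2 (not_lt.mpr hs)), hu0 β (fun h => lt_irrefl _ h.2), sub_zero,
      intervalIntegral.integral_zero_ae, sub_zero] at h1
    · exact (sub_eq_zero.mp h1)
    · refine ae_of_all _ (fun x hx => hg0 x (fun h => ?_))
      rw [uIoc_of_le hs] at hx
      exact absurd h.2 (not_lt.mpr hx.1.le)
  have hall : ∀ s, w s = w q := by
    intro s
    rcases le_total s α with h1 | h1
    · rw [hle s h1, hin α ⟨le_rfl, hαβ.le⟩]
    rcases le_total s β with h2 | h2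
    · exact hin s ⟨h1, h2⟩
    · rw [hge s h2, hin β ⟨hαβ.le, le_rfl⟩]
  have := hdiff a b
  rw [hall a, hall b, sub_self] at this
  exact (sub_eq_zero.mp this.symm)

end One

/-! ## Several variables -/

variable {E E' : Type*} [NormedAddCommGroup E] [NormedSpace ℝ E] [FiniteDimensional ℝ E]
  [MeasurableSpace E] [BorelSpace E] {μ : Measure E} [μ.IsAddHaarMeasure]
  [NormedAddCommGroup E'] [NormedSpace ℝ E'] [CompleteSpace E'] {u g : E → E'} {v : E}

omit [FiniteDimensional ℝ E] [BorelSpace E] [μ.IsAddHaarMeasure] [CompleteSpace E'] in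
theorem WeakDir.smul {Ω : Set E} (h : WeakDir μ Ω u g v) (c : ℝ) :
    WeakDir μ Ω u (fun x => c • g x) (c • v) := by
  intro φ h1 h2 h3
  have e1 : ∀ x, φ x • c • g x = c • φ x • g x := fun x => smul_comm _ _ _
  have e2 : ∀ x, (fderiv ℝ φ x (c • v)) • u x = c • (fderiv ℝ φ x v) • u x := by
    intro x
    rw [map_smul, smul_assoc]
  simp only [e1, e2]
  rw [integral_smul, integral_smul, h φ h1 h2 h3, smul_neg]

omit [CompleteSpace E'] in
theorem ae_line_integrable (hg : Integrable g μ) (v : E) :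
    ∀ᵐ x ∂μ, ∀ a b : ℝ, IntervalIntegrable (fun s : ℝ => g (x + s • v)) volume a b := by
  have h1 : ∀ᵐ x ∂μ, ∀ n : ℕ, IntegrableOn (fun s : ℝ => g (x + s • v)) (Ioc (0:ℝ) n) := by
    rw [ae_all_iff]
    intro n
    exact (integrable_shear' hg v n).prod_left_ae
  have h2 : ∀ᵐ x ∂μ, ∀ n : ℕ, IntegrableOn (fun s : ℝ => g (x + s • (-v))) (Ioc (0:ℝ) n) := by
    rw [ae_all_iff]
    intro n
    exact (integrable_shear' hg (-v) n).prod_left_ae
  filter_upwards [h1, h2] with x hx1 hx2
  have h3 : ∀ b : ℝ, 0 ≤ b → IntervalIntegrable (fun s : ℝ => g (x + s • v)) volume 0 b := by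
    intro b hb
    obtain ⟨n, hn⟩ := exists_nat_ge b
    rw [intervalIntegrable_iff_integrableOn_Ioc_of_le hb]
    exact (hx1 n).mono_set (Ioc_subset_Ioc_right hn)
  have h4 : ∀ b : ℝ, b ≤ 0 → IntervalIntegrable (fun s : ℝ => g (x + s • v)) volume 0 b := by
    intro b hb
    obtain ⟨n, hn⟩ := exists_nat_ge (-b)
    have h5 : IntervalIntegrable (fun s : ℝ => g (x + s • (-v))) volume 0 (-b) := by
      rw [intervalIntegrable_iff_integrableOn_Ioc_of_le (by linarith)]
      exact (hx2 n).mono_set (Ioc_subset_Ioc_right hn)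
    rw [IntervalIntegrable.iff_comp_neg, neg_zero]
    simpa only [smul_neg, neg_smul] using h5
  have h5 : ∀ b : ℝ, IntervalIntegrable (fun s : ℝ => g (x + s • v)) volume 0 b := by
    intro b
    rcases le_total 0 b with h | h
    · exact h3 b h
    · exact h4 b h
  exact fun a b => (h5 a).symm.trans (h5 b)

/-- almost every line is good -/
theorem ae_line {D : Set E} (hD : IsOpen D) (hc : Convex ℝ D) (hb : Bornology.IsBounded D)
    (hv : v ≠ 0) (hu : Continuous u) (hg : Integrable g μ) (hu0 : ∀ x, x ∉ D → u x = 0)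
    (hg0 : ∀ x, x ∉ D → g x = 0) (hw : WeakDir μ D u g v) :
    ∀ᵐ x ∂μ, ∀ a b : ℝ, u (x + b • v) - u (x + a • v) = ∫ s in a..b, g (x + s • v) := by
  have h1 : ∀ᵐ x ∂μ, ∀ a b : ℚ, (∀ s ∈ Icc (0 : ℝ) 1, x + (a:ℝ) • v + s • (((b:ℝ) - a) • v) ∈ D) →
      GoodDir u (fun x => ((b:ℝ) - a) • g x) (x + (a:ℝ) • v) (((b:ℝ) - a) • v) := by
    rw [ae_all_iff]
    intro a
    rw [ae_all_iff]
    intro b
    have h := ae_goodDir (μ := μ) hD hu.continuousOn
      ((hg.smul ((b:ℝ) - a)).locallyIntegrable.locallyIntegrableOn D) (hw.smul ((b:ℝ) - a))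
    exact (measurePreserving_add_right μ ((a:ℝ) • v)).quasiMeasurePreserving.ae h
  filter_upwards [h1, ae_line_integrable hg v] with x hx1 hx2
  have hcont : Continuous (fun t : ℝ => x + t • v) := by fun_prop
  refine line_eq (u := fun t => u (x + t • v)) (g := fun t => g (x + t • v))
    (I := (fun t : ℝ => x + t • v) ⁻¹' D) (hu.comp hcont) hx2 (hD.preimage hcont) ?_ ?_
    (fun t ht => hu0 _ ht) (fun t ht => hg0 _ ht) ?_
  · intro s hs t ht a b ha hb hab
    have h3 := hc hs ht ha hb hab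
    have hb' : b = 1 - a := by linarith
    subst hb'
    have e : x + (a • s + (1 - a) • t) • v = a • (x + s • v) + (1 - a) • (x + t • v) := by
      simp only [smul_eq_mul]
      module
    change x + (a • s + (1 - a) • t) • v ∈ D
    rw [e]
    exact h3
  · obtain ⟨R, hR⟩ := hb.exists_norm_le
    have hv' : 0 < ‖v‖ := norm_pos_iff.mpr hv
    refine isBounded_iff_forall_norm_le.mpr ⟨(R + ‖x‖) / ‖v‖, fun t ht => ?_⟩
    rw [le_div_iff₀ hv', Real.norm_eq_abs]
    have h3 := hR _ ht
    have h4 : ‖t • v‖ ≤ ‖x + t • v‖ + ‖x‖ := by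
      calc ‖t • v‖ = ‖(x + t • v) - x‖ := by rw [add_sub_cancel_left]
        _ ≤ _ := norm_sub_le _ _
    rw [norm_smul, Real.norm_eq_abs] at h4
    linarith
  · intro a b hab hI
    have hba : (0:ℝ) < (b:ℝ) - a := sub_pos.mpr hab
    have h2 := hx1 a b (fun s hs => by
      have h3 : (a:ℝ) + s * (b - a) ∈ Icc (a:ℝ) b := by
        refine ⟨?_, ?_⟩
        · nlinarith [hs.1]
        · nlinarith [hs.2]
      have h4 := hI h3
      simp only [mem_preimage] at h4
      convert h4 using 1
      module)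
    have h3 := h2.2 1 ⟨zero_le_one, le_rfl⟩
    have e1 : x + (a:ℝ) • v + (1:ℝ) • ((b:ℝ) - a) • v = x + (b:ℝ) • v := by module
    rw [e1] at h3
    rw [h3, add_sub_cancel_left]
    rw [intervalIntegral.integral_smul]
    have h4 := intervalIntegral.smul_integral_comp_add_mul (a := 0) (b := 1)
      (fun s : ℝ => g (x + s • v)) ((b:ℝ) - a) (a:ℝ)
    rw [mul_zero, mul_one, add_zero, add_sub_cancel] at h4
    rw [← h4]
    congr 1
    refine intervalIntegral.integral_congr (fun s _ => ?_)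
    change g (x + (a:ℝ) • v + s • ((b:ℝ) - a) • v) = g (x + ((a:ℝ) + ((b:ℝ) - a) * s) • v)
    congr 1
    module

/-- **Extension by zero.** -/
theorem weakDir_univ {D : Set E} (hD : IsOpen D) (hc : Convex ℝ D) (hb : Bornology.IsBounded D)
    (hv : v ≠ 0) (hu : Continuous u) (hui : Integrable u μ) (hg : Integrable g μ)
    (hu0 : ∀ x, x ∉ D → u x = 0)
    (hg0 : ∀ x, x ∉ D → g x = 0) (hw : WeakDir μ D u g v) : WeakDir μ univ u g v := by
  intro φ hφ hφc _
  rw [setIntegral_univ, setIntegral_univ]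
  have hl := ae_line (μ := μ) hD hc hb hv hu hg hu0 hg0 hw
  have hJg := continuous_J (μ := μ) hg hφ.continuous hφc v
  have h1 : ∀ t ∈ Icc (0:ℝ) 1, ∫ x, φ (x - t • v) • u x ∂μ =
      (∫ x, φ x • u x ∂μ) + ∫ s in (0:ℝ)..t, ∫ x, φ (x - s • v) • g x ∂μ := by
    intro t ht
    have e2 : ∫ s in (0 : ℝ)..t, ∫ x, φ (x - s • v) • g x ∂μ =
        ∫ x, φ x • (∫ s in (0 : ℝ)..t, g (x + s • v)) ∂μ := by
      have e3 : ∫ s in (0 : ℝ)..t, ∫ x, φ (x - s • v) • g x ∂μ =
          ∫ s in (0 : ℝ)..t, ∫ x, φ x • g (x + s • v) ∂μ := by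
        refine intervalIntegral.integral_congr (fun s _ => ?_)
        exact integral_shift g (s • v) φ
      rw [e3, intervalIntegral.integral_of_le ht.1,
        integral_integral_swap (f := fun s x => φ x • g (x + s • v))
          (integrable_shear hg v t hφ.continuous hφc)]
      refine integral_congr_ae (ae_of_all _ fun x => ?_)
      change _ = φ x • (∫ s in (0 : ℝ)..t, g (x + s • v))
      rw [intervalIntegral.integral_of_le ht.1]
      exact integral_smul _ _
    obtain ⟨C, hC⟩ := hφc.exists_bound_of_continuous hφ.continuous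
    have i1 : Integrable (fun x => φ x • u (x + t • v)) μ :=
      (hui.comp_add_right (t • v)).bdd_smul (C := C) hφ.continuous.aestronglyMeasurable
        (ae_of_all _ hC)
    have i2 : Integrable (fun x => φ x • u x) μ :=
      hui.bdd_smul (C := C) hφ.continuous.aestronglyMeasurable (ae_of_all _ hC)
    rw [e2, integral_shift, ← sub_eq_iff_eq_add', ← integral_sub i1 i2]
    refine integral_congr_ae ?_
    filter_upwards [hl] with x hx
    have := hx 0 t
    rw [zero_smul, add_zero] at this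
    rw [← smul_sub, this]
  have hd1 := (hasDerivAt_J (μ := μ) hui hφ hφc v 0).hasDerivWithinAt (s := Icc (0:ℝ) 1)
  have hd2 : HasDerivAt (fun t : ℝ => (∫ x, φ x • u x ∂μ) +
      ∫ s in (0:ℝ)..t, ∫ x, φ (x - s • v) • g x ∂μ) (∫ x, φ (x - (0:ℝ) • v) • g x ∂μ) 0 :=
    (intervalIntegral.integral_hasDerivAt_right (hJg.intervalIntegrable _ _)
      hJg.stronglyMeasurable.stronglyMeasurableAtFilter hJg.continuousAt).const_add _
  have hd3 := hd2.hasDerivWithinAt (s := Icc (0:ℝ) 1)
  have hd4 := hd3.congr h1 (h1 0 ⟨le_rfl, zero_le_one⟩)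
  have h2 := (uniqueDiffOn_Icc zero_lt_one (0:ℝ) ⟨le_rfl, zero_le_one⟩).eq_deriv _ hd4 hd1
  simp only [zero_smul, sub_zero] at h2
  rw [h2, ← integral_neg]
  refine integral_congr_ae (ae_of_all _ fun x => ?_)
  simp only
  rw [neg_smul]

end Vale.Agent.P073.HB
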